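import Vale.Agent.P204W88.Main

open scoped Manifold ContDiff
open Vale.Agent.P204W88

/-- Donaldson's question has a positive answer: an almost complex structure on a closed connected
smooth four-manifold which is tamed by a symplectic form is compatible with a symplectic form. -/
theorem Vale.Agent.Results.P204.AIntrinsicForms.result.{u} (X : Type u) [TopologicalSpace X]
    [ChartedSpace R4 X] [IsManifold (𝓡 4) ∞ X] [CompactSpace X] [T2Space X] [ConnectedSpace X]
    (J : End R4 X) (hJ : IsAlmostComplex J) (h : ∃ om : Form R4 X, IsSymplectic om ∧ Tames om J) :
    ∃ om : Form R4 X, IsSymplectic om ∧ IsCompatible om J :=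
  main X J hJ h
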